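import Vale.Agent.P273.H221.Final

/-!
Pixton's relations are not complete in cohomology for `(g, n) = (2, 14)`: an explicit element of
degree 9 of the strata algebra is zero in the cohomology of the moduli space of stable curves, but
it is not a combination of Pixton's relations. The 14 legs are `(i, b)`, with `i : Fin 7` and
`b : Bool`; the element is `∑ i, xa i [xh i]`: the antisymmetrization (in the legs `(i, true)` and in
the legs `(i, false)`) of a combination of five theta graphs, minus the same with one leg moved
from one end of the three chains to the other end.
-/

noncomputable section
namespace Vale.Agent.Results.P273.PixtonIncompleteCohomology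

open Vale.Agent.P273 Vale.Agent.P273.Z Vale.Agent.P273.H503

/-- The graphs `xh i` are stable of genus 2 with 9 edges; for every closed differential form of
degree 16 on the moduli stack the integrals over the strata of the graphs converge absolutely and
their combination with the coefficients `xa i` is zero; some functional on the strata algebra that
satisfies all of Pixton's relations is not zero at the element. -/
theorem result :
    (∀ i, Valid (fun _ => (0, 0)) (fun y => (xh i y, 0)) 2 9) ∧
    H837.Vanishes 8 xa xh ∧
    ∃ s : Fn (Fin 7 × Bool), Pix 2 9 s ∧
      ∑ i, xa i * s _ _ (fun _ => (0, 0)) (fun y => (xh i y, 0)) ≠ 0 :=
  H221.final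

end Vale.Agent.Results.P273.PixtonIncompleteCohomology
end
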